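import Vale.Agent.P092HR.Defs

/-!
P092, higher rank (helper42): blocks ND and INJ.
-/

set_option linter.all false

open scoped InnerProductSpace ENNReal NNReal
open MeasureTheory Filter Topology ContinuousLinearMap Set

namespace Vale.Agent.P092HR

open Vale.Agent.P092CP Vale.Agent.P092RD Vale.Agent.P092GK Vale.Agent.P092TH
open Vale.Agent.P092.RC (Cm Moore)

variable {k : Type} [NontriviallyNormedField k] [ProperSpace k] {G K : Type} [Group G]
  [TopologicalSpace G] [IsTopologicalGroup G] [LocallyCompactSpace G] [SecondCountableTopology G]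
  [T2Space G] [MeasurableSpace G] [BorelSpace G] [NormedAddCommGroup K] [InnerProductSpace ℂ K]
  [CompleteSpace K] {μ : Measure G} [μ.IsHaarMeasure] {W : Set (K →L[ℂ] K)} {r : ℕ}
  {F : FlD k G r} {C : Cpl μ μ W} {z : ℕ → G} {L : Aa r →ₗ[ℝ] Aa r}
  {E : POM (YY F) K} {θ₀ : POM (ZZ F) K}

/-- the projection on the vectors all of whose translates are killed by `x` -/
theorem exists_ker (C : Cpl μ μ W) {x : K →L[ℂ] K} (hx : Cm W x) :
    ∃ q, C.s.M q ∧ x * q = 0 ∧ (∀ ξ, (∀ g, x (C.s.π g ξ) = 0) → q ξ = ξ) ∧ adjoint q = q ∧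
      ∀ ξ, ‖q ξ‖ ≤ ‖ξ‖ := by
  let S : Submodule ℂ K := ⨅ g, LinearMap.ker (x * C.s.π g).toLinearMap
  have m : ∀ ξ, ξ ∈ S ↔ ∀ g, x (C.s.π g ξ) = 0 := fun ξ => by
    simp only [S, Submodule.mem_iInf, LinearMap.mem_ker]; rfl
  have c : IsClosed (S : Set K) := by
    have : (S : Set K) = ⋂ g, {ξ | x (C.s.π g ξ) = 0} := by
      ext ξ; simp only [SetLike.mem_coe, m, mem_iInter, mem_setOf_eq]
    rw [this]
    exact isClosed_iInter fun g => isClosed_eq (by fun_prop) continuous_const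
  haveI : CompleteSpace S := c.completeSpace_coe
  have w : ∀ w ∈ W, ∀ ξ ∈ S, w ξ ∈ S := fun w hw ξ h => (m _).2 fun g => by
    have h1 := ap_eq (C.s.conj x hx g⁻¹ w hw) ξ
    simp only [mul_ap, inv_inv, (m ξ).1 h g, map_zero] at h1
    rw [← pi_ap_inv (π := C.s.π) g (x _), h1, map_zero]
  have p : ∀ g, ∀ ξ ∈ S, C.s.π g ξ ∈ S := fun g ξ h => (m _).2 fun g' => by
    rw [pi_ap]; exact (m ξ).1 h _
  refine ⟨S.starProjection, ⟨fun a ha => proj_comm S (w a ha) (w _ (C.Wadj a ha)), fun g =>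
    proj_comm S (p g) (by rw [C.s.adj]; exact p _)⟩, ?_,
    fun ξ h => S.starProjection_eq_self_iff.2 ((m ξ).2 h),
    S.starProjection_isSymmetric.isSelfAdjoint.adjoint_eq, S.norm_starProjection_apply_le⟩
  ext ξ
  have := (m _).1 (S.starProjection_apply_mem ξ) 1
  rwa [map_one] at this

/-- a covariant measure is carried by the points opposite to a given one -/
theorem ae_opp (h : Fl F) (S : Side μ W) {H H' : Subgroup G} (e : H ≤ PP F) (e' : H' ≤ PP F)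
    {Ψ : POM (G ⧸ H') K} (cov : Cov S.π Ψ) (y : G ⧸ H) (ξ : K) :
    ∀ᵐ w ∂Ψ.ν ξ, (y, w) ∈ F.Op H H' := by
  have m : MeasurableSet {w | (y, w) ∈ F.Op H H'}ᶜ :=
    ((h.isOpen_Op e e').preimage (Continuous.prodMk_right y)).measurableSet.compl
  haveI := S.inv
  exact (Ψ.P_eq_zero_iff m).1 (null S cov m fun ζ =>
    (Measure.measurePreserving_inv μ).quasiMeasurePreserving.ae (h.ae_op μ e e' y ζ)) ξ

/-- nondegeneracy of a covariant projection valued measure -/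
theorem nd_of (h : Fl F) (hE : E.IsP) (cm : ∀ φ, Bd φ → Cm W (E.f φ)) (cov : Cov C.t.π E) :
    Nd F C E := by
  intro U hU ⟨y, hy⟩ ξ h0
  by_contra h1
  push Not at h1
  obtain ⟨x, rfl⟩ := QuotientGroup.mk_surjective y
  have mU := hU.measurableSet
  obtain ⟨q, h2, h3, h4, h5, h6⟩ := exists_ker C (cm _ (Bd.ind mU))
  have h7 : q * E.P U = 0 := by
    have := congrArg star h3
    rwa [star_mul, star_zero, ← POM.P, E.star_P mU, star_eq_adjoint, h5] at this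
  have h8 : ∀ g, ‖q C.s.Ω‖ₑ ^ 2 ≤ E.ν C.s.Ω ((fun ζ => g • ζ) ⁻¹' Uᶜ) := fun g => by
    have e1 := cov.ν C.t g⁻¹ mU.compl C.s.Ω
    rw [inv_inv] at e1
    have e2 : q (C.t.π g C.s.Ω) = q (E.P Uᶜ (C.t.π g C.s.Ω)) := by
      rw [hE.P_compl mU, ← mul_ap q (1 - _), mul_sub, h7, mul_one, sub_zero]
    have e3 : ‖q C.s.Ω‖ ≤ ‖E.P Uᶜ (C.t.π g C.s.Ω)‖ :=
      (C.swap.norm_s_Ω h2 g).symm.le.trans (e2 ▸ h6 _)
    rw [← e1, ← hE.enorm_P_sq mU.compl]
    exact pow_le_pow_left' (enorm_le_iff_norm_le.2 e3) 2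
  have h9 := tendsto_measure_of_ae_tendsto_indicator_of_isFiniteMeasure atTop (μ := E.ν C.s.Ω)
    (As := fun n : ℕ => (fun ζ => (x * F.cb Finset.univ ^ n) • ζ) ⁻¹' Uᶜ) MeasurableSet.empty
    (fun n => measurable_const_smul _ mU.compl) (by
      filter_upwards [ae_opp h C.t le_rfl le_rfl cov (F.n₀ : YY F) C.s.Ω] with w hw
      obtain ⟨g, rfl⟩ := QuotientGroup.mk_surjective w
      rw [h.op_mk le_rfl le_rfl, mul_inv_cancel, one_mul] at hw
      have := ((h.attract (h.cb_mem Finset.univ) (fun i => h.ℓ_cb_pos (Finset.mem_univ i)) hw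
        Finset.univ).const_smul x).eventually (hU.mem_nhds (by rwa [mk_smul, mul_one]))
      filter_upwards [this] with n hn
      exact iff_false_intro fun h => h (by simp only [mul_smul]; exact hn))
  have h10 := ge_of_tendsto' h9 fun n => h8 _
  rw [measure_empty, nonpos_iff_eq_zero, pow_eq_zero_iff two_ne_zero, enorm_eq_zero] at h10
  exact h0 (by rw [← h4 ξ h1, C.swap.eq_zero_of_Ω h2 h10, zero_apply])

/-- **ND** -/
theorem nd (g : Gr F) (e : Eb F C E) : Nd F C E := nd_of g.fl e.isP e.inv.cm e.inv.cov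

theorem Nd.ne (n : Nd F C E) {U : Set (YY F)} (hU : IsOpen U) (h : U.Nonempty) : E.P U ≠ 0 :=
  fun e => by
    obtain ⟨g, hg⟩ := n U hU h C.s.Ω (by rw [← norm_ne_zero_iff, C.s.nΩ]; exact one_ne_zero)
    exact hg (by rw [e, zero_apply])

/-- **ND**, for the opposite calculus -/
theorem nd_op (g : Gr F) (e : Eb F C E) {U U' : Set (YY F)} (hU : IsOpen U) (h : U.Nonempty)
    (hU' : IsOpen U') (h' : U'.Nonempty) :
    E.P U * (C.s.π F.n₀ * E.P U' * C.s.π F.n₀⁻¹) ≠ 0 := fun h0 => by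
  have c : ∀ V : Set (YY F), IsOpen V → ∀ p ∈ PP F, ∀ ξ,
      E.P V (C.s.π p ξ) = C.s.π p (E.P V ξ) := fun V hV p hp =>
    ap_eq (comm_of_conj (e.inv.inv p hp _ (Bd.ind hV.measurableSet)))
  refine (nd g e).ne hU' h' (ContinuousLinearMap.ext fun η => ?_)
  by_contra h1
  obtain ⟨x, hx⟩ := nd g e U hU h _ h1
  have h2 : IsOpen {y | E.P U (C.s.π (F.n₀ * y) (E.P U' η)) ≠ 0} :=
    isOpen_ne.preimage (((E.P U).continuous.comp (C.s.cont _)).comp (continuous_const_mul _))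
  obtain ⟨y, h3, h4⟩ := g.fl.dense.inter_open_nonempty _ h2
    ⟨F.n₀⁻¹ * x, by rwa [mem_setOf_eq, mul_inv_cancel_left]⟩
  obtain ⟨u, h5, p, h6, rfl⟩ := g.fl.Ω_iff.1 h4
  have h7 := ap_eq h0 (C.s.π F.n₀ (C.s.π p η))
  simp only [mul_ap, pi_inv_ap, zero_apply] at h7
  refine h3 ?_
  rw [show F.n₀ * (u * p) = F.n₀ * u * F.n₀⁻¹ * (F.n₀ * p) by group, ← pi_ap, ← pi_ap F.n₀ p,
    c U hU _ (g.fl.up_mem_P ((g.fl.n₀um u).1 h5) _), ← c U' hU' p h6, h7, map_zero]

theorem Gr.moore (g : Gr F) {a : G} (ha : a ∈ F.Z) (h0 : F.ℓ a ≠ 0) : Moore {a} := by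
  obtain ⟨s, N, τ, w, hp⟩ := g.pan
  exact fun X _ _ _ u h1 h2 ξ h3 x => P092GH.moore_Z g.fl hp
    ⟨h1, fun η => by simpa using (h2 η).tendsto 1⟩ ha h0 (h3 a rfl) (g.gen ▸ Subgroup.mem_top x)

theorem ncpt (h : Fl F) {a : G} (ha : a ∈ F.Z) (h0 : F.ℓ a ≠ 0) : NoncompactSpace G :=
  cocompact_neBot_iff.1 (P092GH.pow_cocompact h ha h0).neBot

/-- a small open set and a small compact set of opposite flags -/
theorem exists_opp (h : Fl F) : ∃ U A : Set (YY F), IsOpen U ∧ U.Nonempty ∧ IsCompact A ∧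
    (interior A).Nonempty ∧ A ×ˢ U ⊆ F.Op _ _ := by
  obtain ⟨A, U, h1, h2, h3, h4, h5⟩ := isOpen_prod_iff.1 (h.isOpen_Op (H := PP F) (H' := PP F)
    le_rfl le_rfl) F.n₀ (1 : G) (by
      rw [h.op_mk le_rfl le_rfl, mul_inv_cancel, one_mul]; exact h.one_mem)
  obtain ⟨A', h6, h7, h8⟩ := exists_compact_subset h1 h3
  exact ⟨U, A', h2, ⟨_, h4⟩, h6, ⟨_, h7⟩, (prod_mono h8 Subset.rfl).trans h5⟩

/-- **INJ** -/
theorem inj (g : Gr F) (e : Eb F C E) (t : T0 F C z L E θ₀) :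
    ∀ a ∈ F.Z, L (F.ℓ a) = 0 → F.ℓ a = 0 := fun a ha h0 => by
  by_contra h1
  have h := g.fl
  haveI := ncpt h ha h1
  haveI : IsClosed (NN F : Set G) := h.isClosed_N _
  haveI : IsClosed (PP F : Set G) := h.isClosed_P _
  have i0 : Inv C {a} θ₀ := ⟨t.inv.cm, t.inv.cov, fun s hs f hf => by
    rw [show s = a from hs, t.mv a (h.z_mem_P ha _) 1 (one_mem _) (by rw [h.ℓ_one, h0]) f hf,
      show rt (NN F) 1 = id from funext (rt_of_mem (one_mem _))]
    rfl⟩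
  have i2 := (show Inv C F.Z E from ⟨e.inv.cm, e.inv.cov, fun s hs =>
    e.inv.inv s (h.z_mem_P hs _)⟩).tr (p := F.n₀) fun s hs => (h.n₀Z _).2 (by
      simpa [mul_assoc] using hs)
  have i1 : Inv C {a} (tr C.s F.n₀ E) := ⟨i2.cm, i2.cov, fun s hs => i2.inv s (hs ▸ ha)⟩
  obtain ⟨c, hc⟩ := i0.one (g.moore ha h1)
  obtain ⟨U, A, h2, h3, h4, h5, h6⟩ := exists_opp h
  have mA := h4.measurableSet
  have hO := h2.preimage (h.cont_dir h.Ht_N Finset.univ)
  have h7 : θ₀.P (F.dir (NN F) Finset.univ ⁻¹' U) * (tr C.s F.n₀ E).P A = 0 := by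
    refine ContinuousLinearMap.ext fun η => ?_
    have q : ∀ S, MeasurableSet S → ∀ ξ, ‖θ₀.P S ξ‖ ^ 2 ≤ (⟪ξ, θ₀.P S ξ⟫_ℂ).re := fun S hS ξ =>
      (θ₀.norm_sq_le (Bd.ind hS) ξ).trans_eq (by
        rw [θ₀.inner_P hS, Complex.ofReal_re, ← integral_indicator_one hS]
        refine integral_congr_ae (Eventually.of_forall fun y => ?_)
        by_cases hy : y ∈ S <;> simp [hy])
    have h8 : θ₀.ν ((tr C.s F.n₀ E).P A η) (F.dir (NN F) Finset.univ ⁻¹' U) = 0 := by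
      rw [hO.measure_eq_iSup_isCompact]
      simp only [ENNReal.iSup_eq_zero]
      intro S h9 hS
      have mS := hS.measurableSet
      obtain ⟨d, h10, h11⟩ := t.desc A S h4 hS fun p hp =>
        (h.op_dir_right p.1 p.2 le_rfl).1 (h6 ⟨hp.1, h9 hp.2⟩)
      have cT := cm_mul (i0.cm _ (Bd.ind mS)) (i1.cm _ (Bd.ind mA))
      have h12 := C.hs_erg (g.moore ha h1) cT (ne_top_of_le_ne_top h10
        ((tr_le_tq C.t cT fun η => q S mS _).trans (h11 _ i1.cm i1.cov))) fun s hs =>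
          comm_of_conj (by rw [C.s.conj_mul, i0.inv s hs _ (Bd.ind mS), i1.inv s hs _ (Bd.ind mA)])
      have h13 := θ₀.inner_P mS ((tr C.s F.n₀ E).P A η)
      rw [POM.P, POM.P, ← mul_ap, h12, zero_apply, inner_zero_right] at h13
      exact (measureReal_eq_zero_iff (measure_ne_top _ _)).1 (by exact_mod_cast h13.symm)
    have := q _ hO.measurableSet ((tr C.s F.n₀ E).P A η)
    rw [θ₀.inner_P hO.measurableSet, Measure.real, h8] at this
    exact norm_eq_zero.1 (pow_eq_zero_iff two_ne_zero |>.1 (le_antisymm (by simpa using this)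
      (sq_nonneg _)))
  have h8 := t.mod _ 1 (Bd.ind h2.measurableSet) Bd.one
  rw [mul_one, hc, mul_smul_comm, mul_one] at h8
  have c0 : c ≠ 0 := fun e => t.ne (by rw [hc, e, zero_smul])
  rw [show θ₀.P (F.dir (NN F) Finset.univ ⁻¹' U) = c • E.P U from h8, smul_mul_assoc,
    smul_eq_zero_iff_right c0] at h7
  refine nd_op g e h2 h3 isOpen_interior h5 ?_
  have h9 := (isP_tr C.s F.n₀ e.isP).P_sub' isOpen_interior.measurableSet mA interior_subset
  exact (congrArg (E.P U * ·) h9.symm).trans (by simp only [← mul_assoc, h7, zero_mul])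

theorem inj_surj (g : Gr F) (e : Eb F C E) (t : T0 F C z L E θ₀)
    (hs : ∀ x, ∃ a ∈ F.Z, F.ℓ a = x) : Function.Injective L :=
  (injective_iff_map_eq_zero L).2 fun x hx => by
    obtain ⟨a, ha, rfl⟩ := hs x
    exact inj g e t a ha hx

end Vale.Agent.P092HR
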